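import Mathlib

/-!
# P338: every multitape Turing machine that multiplies needs at least `3 n` steps
-/

namespace Vale.Agent.Results.P338.ThreeN

/-- Head moves. -/
inductive Move
  | left | stay | right

/-- Displacement of a head move. -/
def Move.toInt : Move → ℤ
  | .left => -1
  | .stay => 0
  | .right => 1

/-- A deterministic Turing machine with `k + 1` tapes, alphabet `Γ` and state set `Q`.
`δ q s = none` means that the machine halts in state `q` when the heads scan `s`.
If `oneWay` is true the tapes are infinite to the right only (a left move on cell `0` stays). -/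
structure Machine (k : ℕ) (Γ Q : Type) where
  start : Q
  oneWay : Bool
  δ : Q → (Fin (k + 1) → Γ) → Option (Q × (Fin (k + 1) → Γ) × (Fin (k + 1) → Move))

/-- A configuration: state, tape contents, head positions. -/
structure Cfg (k : ℕ) (Γ Q : Type) where
  state : Q
  tape : Fin (k + 1) → ℤ → Γ
  head : Fin (k + 1) → ℤ

variable {k : ℕ} {Γ Q : Type}

/-- New head position. -/
def Machine.move (M : Machine k Γ Q) (m : Move) (p : ℤ) : ℤ :=
  if M.oneWay then max 0 (p + m.toInt) else p + m.toInt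

/-- The scanned symbols. -/
def Cfg.scan (c : Cfg k Γ Q) : Fin (k + 1) → Γ := fun i => c.tape i (c.head i)

/-- The machine has halted in configuration `c`. -/
def Machine.Halted (M : Machine k Γ Q) (c : Cfg k Γ Q) : Prop := M.δ c.state c.scan = none

/-- One step (a halted configuration stays as it is). -/
def Machine.next (M : Machine k Γ Q) (c : Cfg k Γ Q) : Cfg k Γ Q :=
  match M.δ c.state c.scan with
  | none => c
  | some r => ⟨r.1, fun i => Function.update (c.tape i) (c.head i) (r.2.1 i),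
      fun i => M.move (r.2.2 i) (c.head i)⟩

/-- The configuration after `t` steps. -/
def Machine.run (M : Machine k Γ Q) (c : Cfg k Γ Q) (t : ℕ) : Cfg k Γ Q := (M.next)^[t] c

/-- The four special symbols of the alphabet. -/
structure Symbols (Γ : Type) where
  bit : Bool → Γ
  sep : Γ
  blank : Γ
  bit_ne : bit false ≠ bit true
  sep_ne : ∀ b, bit b ≠ sep
  blank_ne : ∀ b, bit b ≠ blank
  sep_blank : sep ≠ blank

/-- The input tape holding the word `x # y`, both numbers written with `n` binary digits, most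
significant digit first, from cell `0` on. -/
def inputTape (S : Symbols Γ) (n x y : ℕ) (j : ℤ) : Γ :=
  if j < 0 then S.blank
  else if j < n then S.bit (x.testBit (n - 1 - j.toNat))
  else if j = n then S.sep
  else if j ≤ 2 * n then S.bit (y.testBit (2 * n - j.toNat))
  else S.blank

/-- Initial configuration on input `x # y`. -/
def Machine.init (M : Machine k Γ Q) (S : Symbols Γ) (n x y : ℕ) : Cfg k Γ Q :=
  ⟨M.start, fun i => if i = 0 then inputTape S n x y else fun _ => S.blank, fun _ => 0⟩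

/-- `M` multiplies, with output tape `o`. -/
def Machine.Multiplies (M : Machine k Γ Q) (S : Symbols Γ) (o : Fin (k + 1)) : Prop :=
  ∀ n : ℕ, 1 ≤ n → ∀ x < 2 ^ n, ∀ y < 2 ^ n, ∃ T : ℕ, M.Halted (M.run (M.init S n x y) T) ∧
    ∀ i : ℕ, i < 2 * n →
      (M.run (M.init S n x y) T).tape o (i : ℤ) = S.bit ((x * y).testBit (2 * n - 1 - i))

/-- Number of steps until the machine halts. -/
noncomputable def Machine.haltTime (M : Machine k Γ Q) (c : Cfg k Γ Q) : ℕ :=
  sInf {T : ℕ | M.Halted (M.run c T)}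

/-- Worst-case running time on inputs `x # y` with `n`-digit `x`, `y`. -/
noncomputable def Machine.worstTime (M : Machine k Γ Q) (S : Symbols Γ) (n : ℕ) : ℕ :=
  (Finset.range (2 ^ n) ×ˢ Finset.range (2 ^ n)).sup fun p => M.haltTime (M.init S n p.1 p.2)

/-! ### Proof -/

theorem run_succ (M : Machine k Γ Q) (c : Cfg k Γ Q) (t : ℕ) :
    M.run c (t + 1) = M.next (M.run c t) := by
  unfold Machine.run
  rw [Function.iterate_succ_apply']

theorem next_of_halted (M : Machine k Γ Q) (c : Cfg k Γ Q) (h : M.Halted c) : M.next c = c := by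
  unfold Machine.Halted at h
  unfold Machine.next
  rw [h]

theorem run_of_halted (M : Machine k Γ Q) (c : Cfg k Γ Q) (T : ℕ) (h : M.Halted (M.run c T))
    (s : ℕ) : M.run c (T + s) = M.run c T := by
  induction s with
  | zero => rfl
  | succ s ih => rw [← Nat.add_assoc, run_succ, ih, next_of_halted M _ h]

theorem next_tape_ne (M : Machine k Γ Q) (c : Cfg k Γ Q) (i : Fin (k + 1)) (j : ℤ)
    (h : j ≠ c.head i) : (M.next c).tape i j = c.tape i j := by
  unfold Machine.next
  split
  · rfl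
  · simp [Function.update_of_ne h]

theorem move_le (M : Machine k Γ Q) (m : Move) (p t : ℤ) (hp : p ≤ t) (ht : 0 ≤ t) :
    M.move m p ≤ t + 1 := by
  have hm : m.toInt ≤ 1 := by cases m <;> simp [Move.toInt]
  unfold Machine.move
  split
  · exact max_le (by linarith) (by linarith)
  · linarith

theorem next_head_le (M : Machine k Γ Q) (c : Cfg k Γ Q) (i : Fin (k + 1)) (t : ℤ)
    (hp : c.head i ≤ t) (ht : 0 ≤ t) : (M.next c).head i ≤ t + 1 := by
  unfold Machine.next
  split
  · linarith
  · exact move_le M _ _ _ hp ht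

theorem run_head_le (M : Machine k Γ Q) (c : Cfg k Γ Q) (i : Fin (k + 1)) (h0 : c.head i = 0)
    (t : ℕ) : (M.run c t).head i ≤ t := by
  induction t with
  | zero => simp [Machine.run, h0]
  | succ t ih =>
    rw [run_succ]
    have := next_head_le M (M.run c t) i t ih (by positivity)
    push_cast
    exact this

/-- Two configurations that agree except in cell `p` of the first tape. -/
def Agree (p : ℤ) (c c' : Cfg k Γ Q) : Prop :=
  c.state = c'.state ∧ c.head = c'.head ∧ ∀ i j, ¬ (i = 0 ∧ j = p) → c.tape i j = c'.tape i j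

theorem agree_next (M : Machine k Γ Q) (p : ℤ) (c c' : Cfg k Γ Q) (h : Agree p c c')
    (hp : c.head 0 ≠ p) : Agree p (M.next c) (M.next c') := by
  obtain ⟨hs, hh, ht⟩ := h
  have hscan : c.scan = c'.scan := by
    funext i
    unfold Cfg.scan
    rw [← hh]
    apply ht
    rintro ⟨rfl, h2⟩
    exact hp h2
  unfold Machine.next
  rw [← hscan, ← hs]
  cases hδ : M.δ c.state c.scan with
  | none => exact ⟨hs, hh, ht⟩
  | some r =>
    refine ⟨rfl, ?_, ?_⟩
    · simp only [hh]
    · intro i j hij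
      simp only
      rw [← hh]
      by_cases hj : j = c.head i
      · subst hj; simp
      · rw [Function.update_of_ne hj, Function.update_of_ne hj]; exact ht i j hij

theorem agree_run (M : Machine k Γ Q) (p : ℕ) (c c' : Cfg k Γ Q) (h : Agree (p : ℤ) c c')
    (h0 : c.head 0 = 0) (t : ℕ) (ht : t ≤ p) : Agree (p : ℤ) (M.run c t) (M.run c' t) := by
  induction t with
  | zero => exact h
  | succ t ih =>
    rw [run_succ, run_succ]
    apply agree_next M p _ _ (ih (by omega))
    have := run_head_le M c 0 h0 t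
    intro h2
    rw [h2] at this
    have : (p : ℤ) ≤ t := this
    omega

/-- The output cells in which two configurations differ. -/
noncomputable def diffSet (o : Fin (k + 1)) (n : ℕ) (c c' : Cfg k Γ Q) : Finset ℤ := by
  classical
  exact (Finset.Ico (0 : ℤ) (2 * n)).filter fun j => c.tape o j ≠ c'.tape o j

theorem diffSet_next (M : Machine k Γ Q) (o : Fin (k + 1)) (n : ℕ) (c c' : Cfg k Γ Q) :
    (diffSet o n (M.next c) (M.next c')).card ≤ (diffSet o n c c').card + 2 := by
  classical
  have hsub : diffSet o n (M.next c) (M.next c') ⊆ diffSet o n c c' ∪ {c.head o, c'.head o} := by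
    intro j hj
    unfold diffSet at hj ⊢
    simp only [Finset.mem_filter, Finset.mem_union, Finset.mem_insert, Finset.mem_singleton] at hj ⊢
    by_cases h1 : j = c.head o
    · exact Or.inr (Or.inl h1)
    by_cases h2 : j = c'.head o
    · exact Or.inr (Or.inr h2)
    left
    refine ⟨hj.1, ?_⟩
    rw [← next_tape_ne M c o j h1, ← next_tape_ne M c' o j h2]
    exact hj.2
  calc (diffSet o n (M.next c) (M.next c')).card
      ≤ (diffSet o n c c' ∪ {c.head o, c'.head o}).card := Finset.card_le_card hsub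
    _ ≤ (diffSet o n c c').card + ({c.head o, c'.head o} : Finset ℤ).card :=
        Finset.card_union_le _ _
    _ ≤ (diffSet o n c c').card + 2 := by
        have := Finset.card_le_two (a := c.head o) (b := c'.head o)
        omega

theorem diffSet_run (M : Machine k Γ Q) (o : Fin (k + 1)) (n : ℕ) (c c' : Cfg k Γ Q) (t s : ℕ) :
    (diffSet o n (M.run c (t + s)) (M.run c' (t + s))).card
      ≤ (diffSet o n (M.run c t) (M.run c' t)).card + 2 * s := by
  induction s with
  | zero => simp
  | succ s ih =>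
    rw [← Nat.add_assoc, run_succ, run_succ]
    have := diffSet_next M o n (M.run c (t + s)) (M.run c' (t + s))
    omega

theorem testBit_even_succ (a i : ℕ) (ha : a % 2 = 0) :
    (a + 1).testBit (i + 1) = a.testBit (i + 1) := by
  rw [Nat.testBit_succ, Nat.testBit_succ]
  congr 1
  omega

theorem init_agree (M : Machine k Γ Q) (S : Symbols Γ) (n x a : ℕ) (ha : a % 2 = 0) :
    Agree ((2 * n : ℕ) : ℤ) (M.init S n x a) (M.init S n x (a + 1)) := by
  refine ⟨rfl, rfl, ?_⟩
  intro i j hij
  unfold Machine.init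
  simp only
  by_cases hi : i = 0
  · simp only [hi, if_true]
    have hj : j ≠ ((2 * n : ℕ) : ℤ) := fun h => hij ⟨hi, h⟩
    unfold inputTape
    split_ifs with h1 h2 h3 h4
    · rfl
    · rfl
    · rfl
    · obtain ⟨m, hm⟩ : ∃ m, 2 * n - j.toNat = m + 1 := ⟨2 * n - j.toNat - 1, by omega⟩
      rw [hm, testBit_even_succ a m ha]
    · rfl
  · simp [hi]

theorem output_of_halted (M : Machine k Γ Q) (S : Symbols Γ) (o : Fin (k + 1))
    (hM : M.Multiplies S o) (n : ℕ) (hn : 1 ≤ n) (x y : ℕ) (hx : x < 2 ^ n) (hy : y < 2 ^ n)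
    (t : ℕ) (ht : M.Halted (M.run (M.init S n x y) t)) (i : ℕ) (hi : i < 2 * n) :
    (M.run (M.init S n x y) t).tape o (i : ℤ) = S.bit ((x * y).testBit (2 * n - 1 - i)) := by
  obtain ⟨T, hT, hout⟩ := hM n hn x hx y hy
  have : M.run (M.init S n x y) t = M.run (M.init S n x y) T := by
    rcases le_total t T with h | h
    · obtain ⟨s, rfl⟩ := Nat.exists_eq_add_of_le h
      exact (run_of_halted M _ t ht s).symm
    · obtain ⟨s, rfl⟩ := Nat.exists_eq_add_of_le h
      exact run_of_halted M _ T hT s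
  rw [this]
  exact hout i hi

/-- The two products are complementary `2 n`-digit numbers. -/
theorem complementary (n : ℕ) (hn : 1 ≤ n) (i : ℕ) (hi : i < 2 * n) :
    ((2 ^ n - 1) * (2 ^ (n - 1) + 1)).testBit i = !((2 ^ n - 1) * 2 ^ (n - 1)).testBit i := by
  obtain ⟨m, rfl⟩ : ∃ m, n = m + 1 := ⟨n - 1, by omega⟩
  have hpos : 1 ≤ 2 ^ m := Nat.one_le_two_pow
  obtain ⟨b, hb⟩ : ∃ b, 2 ^ m = b + 1 := ⟨2 ^ m - 1, by omega⟩
  have h1 : 2 ^ (m + 1) - 1 = 2 * b + 1 := by rw [pow_succ, hb]; omega
  have h2 : 2 ^ (2 * (m + 1)) = (2 * b + 2) * (2 * b + 2) := by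
    rw [two_mul, pow_add, pow_succ, hb]; ring
  have hlt : (2 ^ (m + 1) - 1) * 2 ^ (m + 1 - 1) < 2 ^ (2 * (m + 1)) := by
    rw [h1, h2, Nat.add_sub_cancel, hb]; nlinarith
  have heq : (2 ^ (m + 1) - 1) * (2 ^ (m + 1 - 1) + 1)
      = 2 ^ (2 * (m + 1)) - ((2 ^ (m + 1) - 1) * 2 ^ (m + 1 - 1) + 1) := by
    rw [h1, h2, Nat.add_sub_cancel, hb]
    apply Nat.eq_sub_of_add_eq
    ring
  rw [heq, Nat.testBit_two_pow_sub_succ hlt]
  simp [hi]

theorem not_both_halted (M : Machine k Γ Q) (S : Symbols Γ) (o : Fin (k + 1))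
    (hM : M.Multiplies S o) (n : ℕ) (hn : 2 ≤ n) :
    ¬ (M.Halted (M.run (M.init S n (2 ^ n - 1) (2 ^ (n - 1))) (3 * n - 1)) ∧
       M.Halted (M.run (M.init S n (2 ^ n - 1) (2 ^ (n - 1) + 1)) (3 * n - 1))) := by
  classical
  rintro ⟨h0, h1⟩
  have hpn : 2 ^ n = 2 * 2 ^ (n - 1) := by
    obtain ⟨m, rfl⟩ : ∃ m, n = m + 1 := ⟨n - 1, by omega⟩
    rw [Nat.add_sub_cancel, pow_succ]; ring
  have hp2 : 2 ^ (n - 1) = 2 * 2 ^ (n - 2) := by
    obtain ⟨m, rfl⟩ : ∃ m, n = m + 2 := ⟨n - 2, by omega⟩
    rw [show m + 2 - 1 = m + 1 by omega, Nat.add_sub_cancel, pow_succ]; ring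
  have hq : 1 ≤ 2 ^ (n - 2) := Nat.one_le_two_pow
  have hx : 2 ^ n - 1 < 2 ^ n := by omega
  have hy0 : 2 ^ (n - 1) < 2 ^ n := by omega
  have hy1 : 2 ^ (n - 1) + 1 < 2 ^ n := by omega
  have heven : 2 ^ (n - 1) % 2 = 0 := by omega
  have hag := agree_run M (2 * n) _ _ (init_agree M S n (2 ^ n - 1) (2 ^ (n - 1)) heven) rfl
    (2 * n) le_rfl
  have hempty : (diffSet o n (M.run (M.init S n (2 ^ n - 1) (2 ^ (n - 1))) (2 * n))
      (M.run (M.init S n (2 ^ n - 1) (2 ^ (n - 1) + 1)) (2 * n))).card = 0 := by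
    rw [Finset.card_eq_zero]
    unfold diffSet
    rw [Finset.filter_eq_empty_iff]
    intro j hj
    rw [Finset.mem_Ico] at hj
    rw [not_not]
    apply hag.2.2
    rintro ⟨-, h2⟩
    rw [h2] at hj
    push_cast at hj
    omega
  have hfull : (diffSet o n (M.run (M.init S n (2 ^ n - 1) (2 ^ (n - 1))) (2 * n + (n - 1)))
      (M.run (M.init S n (2 ^ n - 1) (2 ^ (n - 1) + 1)) (2 * n + (n - 1)))).card = 2 * n := by
    have h3 : 2 * n + (n - 1) = 3 * n - 1 := by omega
    rw [h3]
    unfold diffSet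
    rw [Finset.filter_true_of_mem]
    · rw [Int.card_Ico]
      omega
    · intro j hj
      rw [Finset.mem_Ico] at hj
      obtain ⟨i, rfl⟩ : ∃ i : ℕ, j = (i : ℤ) := ⟨j.toNat, by omega⟩
      have hi : i < 2 * n := by omega
      rw [output_of_halted M S o hM n (by omega) _ _ hx hy0 _ h0 i hi,
        output_of_halted M S o hM n (by omega) _ _ hx hy1 _ h1 i hi,
        complementary n (by omega) _ (by omega)]
      cases ((2 ^ n - 1) * 2 ^ (n - 1)).testBit (2 * n - 1 - i)
      · exact S.bit_ne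
      · exact S.bit_ne.symm
  have := diffSet_run M o n (M.init S n (2 ^ n - 1) (2 ^ (n - 1)))
    (M.init S n (2 ^ n - 1) (2 ^ (n - 1) + 1)) (2 * n) (n - 1)
  omega

theorem le_haltTime (M : Machine k Γ Q) (c : Cfg k Γ Q) (t : ℕ) (hex : ∃ T, M.Halted (M.run c T))
    (h : ¬ M.Halted (M.run c t)) : t + 1 ≤ M.haltTime c := by
  have hmem : M.Halted (M.run c (M.haltTime c)) := Nat.sInf_mem (s := {T | M.Halted (M.run c T)}) hex
  by_contra hlt
  obtain ⟨s, hs⟩ := Nat.exists_eq_add_of_le (show M.haltTime c ≤ t by omega)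
  apply h
  rw [hs, run_of_halted M c _ hmem s]
  exact hmem

/-- **Every multitape Turing machine that multiplies `n`-digit numbers makes at least `3 n` steps
on some input with `n`-digit factors** (`n ≥ 2`), whatever the number of tapes, the alphabet, the
state set and the choice of the output tape. -/
theorem result : ∀ (k : ℕ) (Γ Q : Type) (M : Machine k Γ Q) (S : Symbols Γ) (o : Fin (k + 1)),
    M.Multiplies S o → ∀ n : ℕ, 2 ≤ n → 3 * n ≤ M.worstTime S n := by
  intro k Γ Q M S o hM n hn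
  have hpn : 2 ^ n = 2 * 2 ^ (n - 1) := by
    obtain ⟨m, rfl⟩ : ∃ m, n = m + 1 := ⟨n - 1, by omega⟩
    rw [Nat.add_sub_cancel, pow_succ]; ring
  have hp2 : 2 ^ (n - 1) = 2 * 2 ^ (n - 2) := by
    obtain ⟨m, rfl⟩ : ∃ m, n = m + 2 := ⟨n - 2, by omega⟩
    rw [show m + 2 - 1 = m + 1 by omega, Nat.add_sub_cancel, pow_succ]; ring
  have hq : 1 ≤ 2 ^ (n - 2) := Nat.one_le_two_pow
  have hx : 2 ^ n - 1 < 2 ^ n := by omega
  have hy0 : 2 ^ (n - 1) < 2 ^ n := by omega
  have hy1 : 2 ^ (n - 1) + 1 < 2 ^ n := by omega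
  have hsup : ∀ y, y < 2 ^ n → M.haltTime (M.init S n (2 ^ n - 1) y) ≤ M.worstTime S n := by
    intro y hy
    unfold Machine.worstTime
    exact Finset.le_sup (f := fun p : ℕ × ℕ => M.haltTime (M.init S n p.1 p.2))
      (b := (2 ^ n - 1, y)) (by simp [hy])
  have hex : ∀ y, y < 2 ^ n → ∃ T, M.Halted (M.run (M.init S n (2 ^ n - 1) y) T) := by
    intro y hy
    obtain ⟨T, hT, -⟩ := hM n (by omega) _ hx y hy
    exact ⟨T, hT⟩
  by_cases h0 : M.Halted (M.run (M.init S n (2 ^ n - 1) (2 ^ (n - 1))) (3 * n - 1))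
  · have h1 : ¬ M.Halted (M.run (M.init S n (2 ^ n - 1) (2 ^ (n - 1) + 1)) (3 * n - 1)) :=
      fun h1 => not_both_halted M S o hM n hn ⟨h0, h1⟩
    have := le_haltTime M _ _ (hex _ hy1) h1
    have := hsup _ hy1
    omega
  · have := le_haltTime M _ _ (hex _ hy0) h0
    have := hsup _ hy0
    omega

end Vale.Agent.Results.P338.ThreeN
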